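import Vale.Agent.P141.H38.LagE
import Vale.Agent.P141.H829.PairFD
import Vale.Agent.P141.H393.TieNb
import Vale.Agent.P141.H585.PairRXS

/-!
# P141, line (A): hub `x₁`, the numbers `hE1`, `hE2`, `hE3` of `H585.PairRX.RX_BC` at class data

* `numX_smul` : the numbers of a multiple of the family;
* `qd`, `qd_pack` : the affected squares of `C`, with their neighbours;
* `hS_FDs`, `mass_FDs` : the hypotheses `hS`, `hA1` of `H38.LagE` from `FDs`;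
* `hE_FDs` : the three numbers, `C~ = (√ez)⁻¹ C`, `ε² = √m`.
-/

namespace Vale.Agent.P141.H108.LagF

open Finset Matrix
open Vale.Agent.P141.PL (Pt iv hs ix mem_iv ix_ix cb mem_cb cx card_iv)
open Vale.Agent.P141.PL.H315 (Tri A2 avg)
open Vale.Agent.P141.H48 (US ES BSl sst)
open Vale.Agent.P141.H305 (ClsM Cls kapM)
open Vale.Agent.P141.H677 (kF rt)
open Vale.Agent.P141.H677.Sk
open Vale.Agent.P141.H43 (nsq nsq_nonneg)
open Vale.Agent.P141.H576 (QD QD_pack Dd Dd_sst agree_kD)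
open Vale.Agent.P141.H460 (GPack QPack)
open Vale.Agent.P141.H393.TieNb (nbQ)
open Vale.Agent.P141.H38.LagE
open Vale.Agent.P141.H38.Q (AfC bP)

noncomputable section

open scoped Classical

set_option linter.unusedSectionVars false

variable {ι : Type} [Fintype ι] [DecidableEq ι]

/-! ### A multiple of the family -/

theorem nsq_smul' (c : ℝ) (Y : Matrix ι ι ℝ) (w : ι → ℝ) :
    nsq (Y *ᵥ (c • w)) = c ^ 2 * nsq (Y *ᵥ w) := by
  rw [mulVec_smul, H841.nsq_smul]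

theorem numX_smul {K : ℕ} {M : Pt} {R : Slt ι} {C : FamV ι} {h : Pt} {X : ℝ}
    (N : NumX K M R C h X) (c : ℝ) :
    NumX K M R (fun x0 k z x => c • C x0 k z x) h (c ^ 2 * X) := by
  have hc : 0 ≤ c ^ 2 := sq_nonneg c
  have e2 : ∀ (Y Z : Matrix ι ι ℝ) (w : ι → ℝ), nsq (Y *ᵥ (Z *ᵥ (c • w))) =
      c ^ 2 * nsq (Y *ᵥ (Z *ᵥ w)) := by
    intro Y Z w
    rw [mulVec_smul, mulVec_smul, H841.nsq_smul]
  have e3 : ∀ (p : Prop) (a : ℝ), (if p then c ^ 2 * a else 0) = c ^ 2 * (if p then a else 0) := by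
    intro p a
    rw [mul_ite, mul_zero]
  obtain ⟨E, h0, h1, h2⟩ := N.en
  refine ⟨⟨fun x0 => c ^ 2 * E x0, fun x0 => mul_nonneg hc (h0 x0), ?_, ?_⟩, ?_, ?_, ?_, ?_, ?_, ?_⟩
  · simp only [← mul_sum]
    exact mul_le_mul_of_nonneg_left h1 hc
  · intro t ht x0 hx0 k hk j hj hjk
    simp only [nsq_smul', ← mul_sum]
    exact mul_le_mul_of_nonneg_left (h2 t ht x0 hx0 k hk j hj hjk) hc
  · simp only [nsq_smul', ← mul_sum]
    exact mul_le_mul_of_nonneg_left N.q hc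
  · simp only [e2, ← mul_sum]
    exact mul_le_mul_of_nonneg_left N.q2 hc
  · intro S Q P hP hQ hSQ
    simp only [nsq_smul', e3, ← mul_sum]
    refine (mul_le_mul_of_nonneg_left (N.af S Q P hP hQ hSQ) hc).trans (le_of_eq ?_)
    ring
  · intro l
    simp only [nsq_smul', ← mul_sum]
    exact mul_le_mul_of_nonneg_left (N.qL l) hc
  · intro l
    simp only [e2, ← mul_sum]
    exact mul_le_mul_of_nonneg_left (N.q2L l) hc
  · intro l S Q P hP hQ hSQ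
    simp only [nsq_smul', e3, ← mul_sum]
    refine (mul_le_mul_of_nonneg_left (N.afL l S Q P hP hQ hSQ) hc).trans (le_of_eq ?_)
    ring

/-! ### The affected squares -/

/-- order of the sums over a cube -/
theorem cb_sum' (k : ℕ) (m : Pt) (g : Pt → ℝ) : ∑ y ∈ cb k m, g y =
    ∑ y1 ∈ iv k m.2.1, ∑ y3 ∈ iv k m.2.2, ∑ y0 ∈ iv k m.1, g (y0, y1, y3) := by
  unfold PL.cb
  rw [sum_product]
  simp only [sum_product]
  rw [sum_comm]
  refine sum_congr rfl fun y1 _ => ?_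
  rw [sum_comm]

/-- the affected squares of `C`, cells of `(x0, x1, x3)` -/
def qd (q : H401.Num) (U : Tri) (K : ℕ) (Q2 : ℕ → Pt → Prop) (k : ℕ) (m : Pt) : Prop :=
  QD (fun k x y => sst q.Lm U.2.1 K k x y) Q2 k m.1 m.2.1 m.2.2

section fds

variable {q : H401.Num} {n : ℕ} {ez : ℝ}
  {F1 F2 F3 : ℕ → Pt → ℝ} {K : ℕ} {x : Pt} {s r P : ℝ} {U : Tri} {g : ℤ → ℤ → ℝ}
  {u v : ℤ → ℤ → ι → ℝ} {A : FamA} {b C : FamV ι} {Q1 Q2 Q3 : ℕ → Pt → Prop}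
  {v' : ℤ → ℤ → ι → ℝ}

theorem qd_pack (h : FDs q n ez F1 F2 F3 K x s r U g u v A b C Q1 Q2 Q3 v') (hK : K ≤ n) :
    GPack (nbQ (qd q U K Q2)) K (81 * (q.cP + 2)) := by
  have h1 : QPack n (qd q U K Q2) (q.cP + 2) := fun x0 K' hK' r s =>
    QD_pack (Dd_sst q.Lm U.2.1 K) h.B2 x0 hK' r s
  exact H393.TieNb.gpack_nb h1 hK

/-- an affected row of the shifted grid lies over a neighbour of an affected square -/
theorem hS_FDs (h : FDs q n ez F1 F2 F3 K x s r U g u v A b C Q1 Q2 Q3 v') (hK : K ≤ n)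
    (M w : Pt) (c : ℝ) (x0 : ℤ) {k : ℕ} (hk : k < K) {x1 z : ℤ}
    (ha : AfC k (cl K M w (fun k z x => c • C x0 k z x) k)
      (cl K M w (fun k z x => c • C x0 k z x) (k + 1)) (ix k x1) z) :
    nbQ (qd q U K Q2) k (cx k (x0, x1 + w.1, z + w.2.2)) := by
  unfold H38.Q.AfC at ha
  push Not at ha
  obtain ⟨x', hx', hne⟩ := ha
  rw [mem_iv] at hx'
  have h1 : kF q.Lm U.2.1 K F2 (k + 1) (x0, x' + w.1, z + w.2.2) ≠
      kF q.Lm U.2.1 K F2 k (x0, x' + w.1, z + w.2.2) := by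
    intro he
    refine hne ?_
    unfold cl H747.shC H747.sft
    split_ifs
    · dsimp only
      rw [h.C_eq, h.C_eq, he]
    · rfl
  have h2 : QD (fun k x y => sst q.Lm U.2.1 K k x y) Q2 k (ix k x0) (ix k (x' + w.1))
      (ix k (z + w.2.2)) := by
    by_contra hc
    refine h1 ?_
    have h3 := agree_kD (Dd_sst q.Lm U.2.1 K) h.B2 (lt_of_lt_of_le hk hK) hc
      (x := x' + w.1) (y := z + w.2.2) (mem_iv.2 rfl) (mem_iv.2 rfl)
    exact h3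
  have h4 : |ix k (x' + w.1) - ix k (x1 + w.1)| ≤ 1 := by
    refine H782.ix_near ?_
    obtain ⟨b1, b2⟩ := H782.bd_ix k x'
    obtain ⟨b3, b4⟩ := H782.bd_ix k x1
    rw [hx'] at b1 b2
    rw [abs_le]
    constructor <;> linarith
  rw [abs_le] at h4
  refine ⟨ix k (x' + w.1) - ix k (x1 + w.1), mem_Icc.2 ⟨h4.1, h4.2⟩, 0, by simp, ?_⟩
  unfold qd
  have e1 : (cx k (x0, x1 + w.1, z + w.2.2)).2.1 + (ix k (x' + w.1) - ix k (x1 + w.1)) =
      ix k (x' + w.1) := by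
    change ix k (x1 + w.1) + (ix k (x' + w.1) - ix k (x1 + w.1)) = _
    ring
  dsimp only
  rw [e1, add_zero]
  exact h2

/-- the mass of `C` at the time `0` -/
theorem mass0_FDs (h : FDs q n ez F1 F2 F3 K x s r U g u v A b C Q1 Q2 Q3 v') (c : ℝ)
    (x0 z x1 : ℤ) : nsq (c • C x0 0 z x1) = 0 := by
  have e : C x0 0 z x1 = 0 := by
    rw [h.C_eq]
    unfold H677.kF
    rw [if_pos (Or.inl rfl), zero_smul]
  rw [e, smul_zero, H841.nsq_zero]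

/-- **the mass of `C` at the time `k + 1` on the neighbours of the affected squares** -/
theorem mass_FDs (h : FDs q n ez F1 F2 F3 K x s r U g u v A b C Q1 Q2 Q3 v')
    (hcl : Cls K x s r P U g u v) (hΛ : 1 ≤ q.Lm) (hez : 0 ≤ ez) (hs : 0 ≤ s) (hK : K ≤ n)
    (t : ℤ) :
    ∑ x0 ∈ iv K t, ∑ k ∈ range K, ∑ x1 ∈ iv K (cx K x).1, ∑ z ∈ iv K (cx K x).2.2,
      (if nbQ (qd q U K Q2) k (cx k (x0, x1, z)) then nsq (C x0 (k + 1) z x1) else 0) ≤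
      4 * q.Lm * ez * s * (81 * (q.cP + 2) * 8 ^ K) := by
  have hL0 : 0 ≤ q.Lm := by linarith
  have h1 := H782.static_any (A := nbQ (qd q U K Q2)) (D := fun _ _ => False) (K := K)
    (qd_pack h hK) (t, (cx K x).1, (cx K x).2.2)
    (S := fun k y => nbQ (qd q U K Q2) k (cx k y)) (fun k _ y _ hy => hy)
    (f := fun k y => nsq (C y.1 (k + 1) y.2.2 y.2.1)) (fun k y => nsq_nonneg _)
    (fun k _ y _ hd => hd.elim) (T := 4 * q.Lm * ez * s) (by positivity) ?_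
  · refine le_trans (le_of_eq ?_) h1
    rw [sum_comm]
    refine sum_congr rfl fun k _ => ?_
    rw [cb_sum']
    rw [sum_comm]
    refine sum_congr rfl fun x1 _ => ?_
    rw [sum_comm]
  · intro k hk y hy _ _
    rw [mem_cb] at hy
    rw [cb_sum']
    have g2 := congrArg (fun m : Pt => m.2.1) hy
    have g3 := congrArg (fun m : Pt => m.2.2) hy
    have i2 : ix (K - k) (ix k y.2.1) = ix K x.1 := by
      rw [ix_ix, Nat.add_sub_cancel' hk.le]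
      exact g2
    have i3 : ix (K - k) (ix k y.2.2) = ix K x.2.2 := by
      rw [ix_ix, Nat.add_sub_cancel' hk.le]
      exact g3
    have h2 := H829.massC_FD h hcl hΛ hez hK k hk (ix k y.1) (ix k y.2.2) (mem_iv.2 i3)
      (ix k y.2.1) (mem_iv.2 i2)
    refine le_trans (le_of_eq ?_) (h2.trans (le_of_eq (mul_comm _ _)))
    change ∑ y1 ∈ iv k (ix k y.2.1), ∑ y3 ∈ iv k (ix k y.2.2), ∑ y0 ∈ iv k (ix k y.1),
      nsq (C y0 (k + 1) y3 y1) = _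
    rw [sum_comm (s := iv k (ix k y.1))]
    refine sum_congr rfl fun y1 _ => ?_
    rw [sum_comm]
    rfl

/-! ### The three numbers -/

/-- **`hE1`, `hE2`, `hE3` of `H585.PairRX.RX_BC`** for `C~ = (√ez)⁻¹ C`, `ε² = √m`. -/
theorem hE_FDs (h : FDs q n ez F1 F2 F3 K x s r U g u v A b C Q1 Q2 Q3 v')
    (hcl : Cls K x s r P U g u v) (hΛ : 1 ≤ q.Lm) (hcP : 0 ≤ q.cP) (hez : 0 < ez) (hs : 0 ≤ s)
    (hK : K ≤ n) {R : Slt ι} (hR : ∀ x0 z x, (R x0 0 z x)ᵀ = R x0 0 z x) {w : Pt} {m N0 : ℝ}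
    (hm : 0 < m) (hm1 : m ≤ 1) (hN0 : 0 ≤ N0)
    (N : NumX K (cx K x) R C w (N0 * (ez * m))) {t : ℤ} (ht : t ∈ rt (cx K x)) (R1 R3 : ℤ)
    {ε : ℝ} (hε : ε ^ 2 = √m) {Ct : FamV ι}
    (hCt : ∀ x0 k z x1, Ct x0 k z x1 = (√ez)⁻¹ • C x0 k z x1) (l : ℕ) :
    (∑ x0 ∈ iv K t, nH K R1 R3 ε R (cx K x) w (Ct x0) x0 l ≤
      400 * (q.cP + 2) * (N0 + q.Lm * s * 8 ^ K) * √m) ∧
    (∑ x0 ∈ iv K t, nO K R1 R3 ε R (cx K x) w (Ct x0) x0 l ≤
      400 * (q.cP + 2) * (N0 + q.Lm * s * 8 ^ K) * √m) ∧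
    (∑ x0 ∈ iv K t, nM K R1 R3 ε R (cx K x) w (Ct x0) x0 l ≤
      400 * (q.cP + 2) * (N0 + q.Lm * s * 8 ^ K) * √m) := by
  obtain rfl : Ct = fun x0 k z x1 => (√ez)⁻¹ • C x0 k z x1 := by
    funext x0 k z x1
    exact hCt x0 k z x1
  have hL0 : 0 ≤ q.Lm := by linarith
  have hsq : ((√ez)⁻¹) ^ 2 = ez⁻¹ := by rw [inv_pow, Real.sq_sqrt hez.le]
  have e1 : ((√ez)⁻¹) ^ 2 * (N0 * (ez * m)) = N0 * m := by
    rw [hsq]
    field_simp
  have N' : NumX K (cx K x) R (fun x0 k z x1 => (√ez)⁻¹ • C x0 k z x1) w (N0 * m) := by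
    have h1 := numX_smul N (√ez)⁻¹
    rwa [e1] at h1
  have hsm : 0 < √m := Real.sqrt_pos.2 hm
  have hmm : √m * √m = m := Real.mul_self_sqrt hm.le
  have hsm1 : √m ≤ 1 := Real.sqrt_le_one.2 hm1
  have hmle : m ≤ √m := by nlinarith
  have e2 : (√m)⁻¹ * (N0 * m) = N0 * √m := by
    rw [show N0 * m = √m * (N0 * √m) by rw [← mul_assoc, mul_comm (√m) N0, mul_assoc, hmm],
      inv_mul_cancel_left₀ hsm.ne']
  have X1 : N0 * m ≤ N0 * √m := mul_le_mul_of_nonneg_left hmle hN0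
  have X0 : 0 ≤ N0 * √m := by positivity
  set Y := q.Lm * s * 8 ^ K with hY
  have Y0 : 0 ≤ Y := by positivity
  have c2 : 2 ≤ q.cP + 2 := by linarith
  -- the mass
  have hA : ∑ x0 ∈ iv K t, ∑ k ∈ range K, ∑ x1 ∈ iv K (cx K x).1, ∑ z ∈ iv K (cx K x).2.2,
      (if nbQ (qd q U K Q2) k (cx k (x0, x1, z)) then
        nsq ((√ez)⁻¹ • C x0 (k + 1) z x1) else 0) ≤ 324 * (q.cP + 2) * Y := by
    have e3 : ∀ (p : Prop) (a : ι → ℝ), (if p then nsq ((√ez)⁻¹ • a) else 0) =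
        ez⁻¹ * (if p then nsq a else 0) := by
      intro p a
      rw [mul_ite, mul_zero, H841.nsq_smul, hsq]
    simp only [e3, ← mul_sum]
    have h1 := mul_le_mul_of_nonneg_left (mass_FDs h hcl hΛ hez.le hs hK t)
      (inv_nonneg.2 hez.le)
    refine h1.trans (le_of_eq ?_)
    rw [hY]
    field_simp
    ring
  have hA0 : ∑ x0 ∈ iv K t, ∑ x1 ∈ iv K (cx K x).1, ∑ z ∈ iv K (cx K x).2.2,
      nsq ((√ez)⁻¹ • C x0 0 z x1) ≤ 324 * (q.cP + 2) * Y := by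
    simp only [mass0_FDs h, sum_const_zero]
    positivity
  have b1 := sum_H N' R1 R3 ε ht hA0 l
  have b2 := sum_O hR N' R1 R3 ε ht l
  have b3 := sum_M N' R1 R3 ε ht (S := fun k y => nbQ (qd q U K Q2) k (cx k y))
    (Q := nbQ (qd q U K Q2)) (P := 81 * (q.cP + 2)) (by positivity) (qd_pack h hK)
    (fun k _ y hy => hy) (fun x0 _ k hk x1 z ha _ => hS_FDs h hK (cx K x) w (√ez)⁻¹ x0 hk ha)
    hA l
  rw [hε] at b1 b2 b3
  rw [e2] at b2
  have t1 : 0 ≤ (q.cP + 2) * (Y * √m) := by positivity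
  have t2 : 0 ≤ (q.cP + 2) * (N0 * √m) := by positivity
  have t3 : 2 * (N0 * √m) ≤ (q.cP + 2) * (N0 * √m) := mul_le_mul_of_nonneg_right c2 X0
  have t4 : (q.cP + 2) * (N0 * m) ≤ (q.cP + 2) * (N0 * √m) :=
    mul_le_mul_of_nonneg_left X1 (by linarith)
  refine ⟨b1.trans ?_, b2.trans ?_, b3.trans ?_⟩
  · nlinarith
  · nlinarith
  · nlinarith

open Vale.Agent.P141.H585.PairRX (H0 Q0 M0 RR DR cR) in
/-- **`hE1`, `hE2`, `hE3` in the letters of `H585.PairRX.RX_BC`.** -/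
theorem hE_RXBC (h : FDs q n ez F1 F2 F3 K x s r U g u v A b C Q1 Q2 Q3 v')
    (hcl : Cls K x s r P U g u v) (hΛ : 1 ≤ q.Lm) (hcP : 0 ≤ q.cP) (hez : 0 < ez) (hs : 0 ≤ s)
    (hK : K ≤ n) {R : Slt ι} (hR : ∀ x0 z x, (R x0 0 z x)ᵀ = R x0 0 z x) {w : Pt} {m N0 : ℝ}
    (hm : 0 < m) (hm1 : m ≤ 1) (hN0 : 0 ≤ N0)
    (N : NumX K (cx K x) R C w (N0 * (ez * m))) {t : ℤ} (ht : t ∈ rt (cx K x)) (S T : ℤ)
    {ε : ℝ} (hε : ε ^ 2 = √m) {Ct : FamV ι}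
    (hCt : ∀ x0 k z x1, Ct x0 k z x1 = (√ez)⁻¹ • C x0 k z x1) {l : ℕ} (hl : l ≤ K) :
    (∑ x0 ∈ iv K t, H0 0 K S T ε (RR R w x0) (cR K (cx K x) Ct w x0) l ≤
      400 * (q.cP + 2) * (N0 + q.Lm * s * 8 ^ K) * √m) ∧
    (∑ x0 ∈ iv K t, Q0 0 K S T ε (RR R w x0) (DR R w x0) (cR K (cx K x) Ct w x0) l ≤
      400 * (q.cP + 2) * (N0 + q.Lm * s * 8 ^ K) * √m) ∧
    (∑ x0 ∈ iv K t, M0 0 K S T ε (RR R w x0) (cR K (cx K x) Ct w x0) l ≤
      400 * (q.cP + 2) * (N0 + q.Lm * s * 8 ^ K) * √m) := by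
  obtain ⟨b1, b2, b3⟩ := hE_FDs h hcl hΛ hcP hez hs hK hR hm hm1 hN0 N ht S T hε hCt l
  refine ⟨le_trans (le_of_eq ?_) b1, le_trans (le_of_eq ?_) b2, le_trans (le_of_eq ?_) b3⟩
  · refine sum_congr rfl fun x0 _ => ?_
    unfold nH
    rw [if_pos hl]
    unfold Vale.Agent.P141.H585.PairRX.H0
    rw [Nat.zero_add]
    rfl
  · refine sum_congr rfl fun x0 _ => ?_
    unfold nO
    rw [range_eq_Ico]
    rfl
  · refine sum_congr rfl fun x0 _ => ?_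
    unfold nM
    rw [range_eq_Ico]
    rfl

end fds

end

end Vale.Agent.P141.H108.LagF
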