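import Vale.Agent.P141.H675.PhiX
import Vale.Agent.P141.H108.LagF

/-!
# P141, line (A), flow part, hub `x₁`: the energies of the stack at one slot

* `phA` : the leaf `H675.PX.PhA`.
-/

namespace Vale.Agent.P141.H108

open Finset Matrix
open Vale.Agent.P141.PL (Pt iv hs ix mem_iv ix_ix cb mem_cb cx card_iv)
open Vale.Agent.P141.H677 Vale.Agent.P141.H677.Sk
open Vale.Agent.P141.H186.PS
open Vale.Agent.P141.H277.Phi (MM lgS lgS_one Cz)
open Vale.Agent.P141.H585.PairRX (H0 Q0 M0 RR DR cR)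

noncomputable section

open scoped Classical

set_option linter.unusedVariables false

/-- the masses are below the common number -/
theorem mass_le_MM {q : H401.Num} {s r κ : ℝ} (K : ℕ) (ht : 0 < q.t) (ht1 : q.t ≤ 1)
    (hs : 0 < s) (hr : 1 ≤ r) (hκ : 1 ≤ κ) (hc : 0 ≤ q.c) (hd : 0 ≤ q.d) :
    q.Lm * s * 8 ^ K ≤ MM q s r κ K := by
  have h1 := lgS_one ht ht1 hr hκ
  have h2 : (1 : ℝ) ≤ lgS q r κ ^ 64 := one_le_pow₀ h1
  have h3 : q.t ^ (-q.d) ≤ q.t ^ (-(64 * (q.c + q.d))) :=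
    Real.rpow_le_rpow_of_exponent_ge ht ht1 (by linarith)
  have h4 : (0 : ℝ) ≤ q.t ^ (-(64 * (q.c + q.d))) * s * 8 ^ K := by positivity
  unfold H277.Phi.MM
  calc q.Lm * s * 8 ^ K ≤ q.t ^ (-(64 * (q.c + q.d))) * s * 8 ^ K := by
        unfold H401.Num.Lm
        gcongr
    _ = 1 * (q.t ^ (-(64 * (q.c + q.d))) * s * 8 ^ K) := by ring
    _ ≤ _ := mul_le_mul_of_nonneg_right h2 h4

theorem root_eq {m : ℝ} (hm : 0 < m) : (m ^ (1 / 4 : ℝ)) ^ 2 = √m := by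
  rw [Real.sqrt_eq_rpow, ← Real.rpow_natCast, ← Real.rpow_mul hm.le]
  norm_num

/-- **The leaf.** -/
theorem phA : PartS H636.FDU H675.PX.PhA := by
  refine H675.PX.PartS.of_slot (fun q => 400 * (q.cP + 2)) ?_
  intro ι _ _ q n ez F1 F2 F3 o K x s r U g u v A b C R κ E h j e ha ha1 he0 he01 hk8 hk81 hk3 hk31
    hc hc1 hd hd1 hKt he hcP hL hCD ht ht1 h1 h3 h2 ho hKn hs hr hcl hD hκ hE hEL hS hh hj hq
  obtain ⟨_, _, Q1, Q2, Q3, v', hF⟩ := hD
  have hΛ : 1 ≤ q.Lm := H401.Num.Lm_ge ht ht1 hd.le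
  have hM := mass_le_MM K ht ht1 hs hr hκ hc hd.le
  have hM0 : 0 ≤ q.Lm * s * 8 ^ K := by positivity
  intro hez m N0 hm hm1 hN0 N t' ht' l hl
  have hX : 400 * (q.cP + 2) ≤ max 1 (400 * ((H675.PX.wot q).cP + 2)) := le_max_right _ _
  obtain ⟨b1, b2, b3⟩ := LagF.hE_RXBC hF hcl.toCls hΛ hcP hez hs.le hKn
    (fun x0 z x1 => hS.symm x0 0 (Nat.zero_le K) z x1) hm hm1 hN0 N ht'
    ((cx K x).1 - e.1) ((cx K x).2.2 - e.2.2) (root_eq hm) (Ct := Cz ez C)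
    (fun _ _ _ _ => rfl) hl
  have hB : 400 * (q.cP + 2) * (N0 + q.Lm * s * 8 ^ K) * √m ≤
      max 1 (400 * ((H675.PX.wot q).cP + 2)) * (N0 + MM q s r κ K) * √m := by
    refine mul_le_mul_of_nonneg_right ?_ (Real.sqrt_nonneg m)
    refine mul_le_mul hX (by linarith) (by linarith) ?_
    exact le_trans zero_le_one (le_max_left _ _)
  exact ⟨b1.trans hB, b2.trans hB, b3.trans hB⟩

end

end Vale.Agent.P141.H108
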